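import Vale.Agent.P235.K5.H179.CollarStmt

/-!
P235, line X, row [X-CG]: the collar for a set of at most three points (helper787).
-/

set_option autoImplicit false

namespace Vale.Agent.P235.X.H787

open Vale.Agent.P235 Vale.Agent.P235.H134 Vale.Agent.P235.H56 Vale.Agent.P235.K5

/-- a nonempty set of at most three points is the range of a triple -/
lemma exists_triple {V : Type} {S : Set V} (hne : S.Nonempty) (hf : S.Finite)
    (h3 : S.ncard ≤ 3) : ∃ R : Fin 3 → V, Set.range R = S := by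
  classical
  obtain ⟨s0, hs0⟩ := hne
  have := hf.fintype
  have hc : Fintype.card S ≤ 3 := by
    rw [← Nat.card_eq_fintype_card]
    exact h3
  let e := Fintype.equivFin S
  refine ⟨fun i => if h : (i : ℕ) < Fintype.card S then (e.symm ⟨i, h⟩ : V) else s0, ?_⟩
  ext x
  constructor
  · rintro ⟨i, rfl⟩
    dsimp only
    split_ifs
    · exact Subtype.coe_prop _
    · exact hs0
  · intro hx
    refine ⟨⟨(e ⟨x, hx⟩ : ℕ), lt_of_lt_of_le (e ⟨x, hx⟩).2 hc⟩, ?_⟩
    have h1 : ((e ⟨x, hx⟩ : Fin _) : ℕ) < Fintype.card S := (e ⟨x, hx⟩).2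
    dsimp only
    rw [dif_pos h1]
    have h2 : (⟨(e ⟨x, hx⟩ : ℕ), h1⟩ : Fin (Fintype.card S)) = e ⟨x, hx⟩ := rfl
    rw [h2, Equiv.symm_apply_apply]

/-- **[X-CG]**, letter free: `rho` is a pseudometric on `S`, at most `d` -/
theorem cg {V : Type} [Finite V] (d : V → V → ℝ) (d0 : ∀ x, d x x = 0)
    (ds : ∀ x y, d x y = d y x) (dt : ∀ x y z, d x z ≤ d x y + d y z) (S : Set V)
    (h3 : S.ncard ≤ 3) (rho : V → V → ℝ) (r0 : ∀ x ∈ S, rho x x = 0)
    (rs : ∀ x ∈ S, ∀ y ∈ S, rho x y = rho y x)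
    (rt : ∀ x ∈ S, ∀ y ∈ S, ∀ z ∈ S, rho x z ≤ rho x y + rho y z)
    (hle : ∀ x ∈ S, ∀ y ∈ S, rho x y ≤ d x y) :
    ∃ F : V → V → ℝ, IsL1 F ∧ (∀ x ∈ S, ∀ y ∈ S, F x y = rho x y) ∧ (∀ x y, F x y ≤ d x y) ∧
      ∀ x y, (∃ p ∈ S, ∃ q ∈ S, d x p + rho p q + d q y < 1 / 256 * d x y) →
        ∃ p ∈ S, ∃ q ∈ S, rho p q + d x p + d q y ≤ F x y := by
  have dn : ∀ x y, 0 ≤ d x y := by
    intro x y
    have h1 := dt x y x
    have h2 := ds x y
    have h3 := d0 x
    linarith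
  rcases S.eq_empty_or_nonempty with rfl | hne
  · refine ⟨fun _ _ => 0, IsL1.zero, fun x hx => absurd hx (Set.notMem_empty x), dn, ?_⟩
    rintro x y ⟨p, hp, _⟩
    exact absurd hp (Set.notMem_empty p)
  obtain ⟨R, hR⟩ := exists_triple hne S.toFinite h3
  have hRS : ∀ i, R i ∈ S := fun i => hR ▸ Set.mem_range_self i
  have hSR : ∀ x ∈ S, ∃ i, R i = x := fun x hx => by
    rw [← hR] at hx
    exact hx
  have T : K5.H179.Tri d R (fun i j => rho (R i) (R j)) :=
    ⟨d0, ds, dt, fun i => r0 _ (hRS i), fun i j => rs _ (hRS i) _ (hRS j),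
      fun i j k => rt _ (hRS i) _ (hRS j) _ (hRS k), fun i j => hle _ (hRS i) _ (hRS j)⟩
  have rn := T.rnonneg
  obtain ⟨u, v, hu, hv, he, hn⟩ := K5.H179.collar T
  refine ⟨fun x y => max |u x - u y| |v x - v y|, isL1_max u v, ?_,
    fun x y => max_le (hu x y) (hv x y), ?_⟩
  · intro x hx y hy
    obtain ⟨i, rfl⟩ := hSR x hx
    obtain ⟨j, rfl⟩ := hSR y hy
    exact he i j
  · rintro x y ⟨p, hp, q, hq, hpq⟩
    obtain ⟨i, rfl⟩ := hSR p hp
    obtain ⟨j, rfl⟩ := hSR q hq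
    obtain ⟨i', j', h'⟩ := hn x y i j (by
      unfold K5.H179.Near
      have h1 := dt x (R i) y
      have h2 := dt (R i) (R j) y
      have h3 := dn x (R i)
      have h4 := dn (R j) y
      have h5 := rn i j
      have h6 := ds y (R j)
      have h7 := dt (R i) x (R j)
      have h8 := dt x y (R j)
      have h9 := ds (R i) x
      have h10 := ds x (R i)
      dsimp only at h5 ⊢
      linarith)
    refine ⟨R i', hRS i', R j', hRS j', ?_⟩
    have h6 := ds (R j') y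
    dsimp only at h' ⊢
    linarith

end Vale.Agent.P235.X.H787
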